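import Crest.Agent.R035.Game

/-!
# Bitboard templates and the kernel-friendly checker

Cell `(x, y)` with `0 ≤ x, y < 16` is bit `x + 32 * y`. A template is one natural number
`P < 2 ^ 1024`: bits `[0, 512)` are the Maker cells `C`, bits `[512, 1024)` are the full support `U`.
-/

set_option autoImplicit false
set_option exponentiation.threshold 100000

namespace Crest.Agent.R035

open Crest.CombinatoricsR.PolyominoGame

/-- The cell of a bit index. -/
def cellOf (i : ℕ) : Cell := (((i % 32 : ℕ) : ℤ), ((i / 32 : ℕ) : ℤ))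

def Cset (P : ℕ) : Set Cell := {c | ∃ i, i < 512 ∧ P.testBit i = true ∧ cellOf i = c}

def Uset (P : ℕ) : Set Cell := {c | ∃ i, i < 512 ∧ P.testBit (512 + i) = true ∧ cellOf i = c}

structure Ok (d P : ℕ) : Prop where
  guard : ∀ i, P.testBit i = true → i % 32 < 16 ∧ i < 1024
  sub : ∀ i, i < 512 → P.testBit i = true → P.testBit (512 + i) = true
  tmpl : Tmpl (Cset P) (Uset P) d

theorem Ok.mono {d d' P : ℕ} (h : Ok d P) (hd : d ≤ d') : Ok d' P :=
  ⟨h.guard, h.sub, h.tmpl.mono subset_rfl subset_rfl hd⟩

theorem cellOf_inj {i j : ℕ} (h : cellOf i = cellOf j) : i = j := by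
  unfold cellOf at h
  rw [Prod.mk.injEq] at h
  omega

theorem Ok.shift {d P : ℕ} (h : Ok d P) (s : ℕ)
    (hg : ∀ i, (P <<< s).testBit i = true → i % 32 < 16 ∧ i < 1024) : Ok d (P <<< s) := by
  have tb : ∀ i, P.testBit i = true → (P <<< s).testBit (i + s) = true := by
    intro i hi
    rw [Nat.testBit_shiftLeft]
    simp [hi]
  have tb' : ∀ i, (P <<< s).testBit i = true → s ≤ i ∧ P.testBit (i - s) = true := by
    intro i hi
    rw [Nat.testBit_shiftLeft] at hi
    simpa using hi
  -- U-bits stay within bounds
  have hU : ∀ i, P.testBit (512 + i) = true → i + s < 512 ∧ i % 32 < 16 ∧ (i + s) % 32 < 16 := by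
    intro i hi
    have h1 := hg _ (tb _ hi)
    have h2 := h.guard _ hi
    omega
  have hsub : ∀ i, i < 512 → (P <<< s).testBit i = true → (P <<< s).testBit (512 + i) = true := by
    intro i hi hb
    obtain ⟨h1, h2⟩ := tb' i hb
    have h3 := h.sub (i - s) (by omega) h2
    have h4 := tb _ h3
    have : 512 + (i - s) + s = 512 + i := by omega
    rwa [this] at h4
  refine ⟨hg, hsub, ?_⟩
  by_cases hne : ∃ i, P.testBit (512 + i) = true
  · obtain ⟨i0, hi0⟩ := hne
    have key : ∀ i, P.testBit (512 + i) = true →
        cellOf (i + s) = cellOf i + (cellOf (i0 + s) - cellOf i0) := by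
      intro i hi
      have h1 := hU i hi
      have h2 := hU i0 hi0
      unfold cellOf
      ext
      · simp only [Prod.fst_add, Prod.fst_sub]
        omega
      · simp only [Prod.snd_add, Prod.snd_sub]
        omega
    have ht := h.tmpl.translate (cellOf (i0 + s) - cellOf i0)
    refine ht.mono ?_ ?_ le_rfl
    · rintro c ⟨c', ⟨i, hi, hb, rfl⟩, rfl⟩
      have hsb := h.sub i hi hb
      refine ⟨i + s, (hU i hsb).1, tb i hb, ?_⟩
      exact key i hsb
    · rintro c ⟨c', ⟨i, hi, hb, rfl⟩, rfl⟩
      refine ⟨i + s, (hU i hb).1, ?_, ?_⟩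
      · have := tb _ hb
        rwa [show 512 + i + s = 512 + (i + s) by omega] at this
      · exact key i hb
  · refine h.tmpl.mono ?_ ?_ le_rfl
    · rintro c ⟨i, hi, hb, rfl⟩
      exact absurd ⟨i, h.sub i hi hb⟩ hne
    · rintro c ⟨i, hi, hb, rfl⟩
      exact absurd ⟨i, hb⟩ hne

/-- `M` is a single bit below 512. -/
def Single (M : ℕ) : Prop := ∃ m, m < 512 ∧ M = 2 ^ m

/-- Offsets of the 64 slots of a block. -/
def Aligned (off : ℕ) : Prop := ∃ k, k < 64 ∧ off = 1024 * k

/-- The mask `2 ^ 1024 - 1`. -/
local notation "MASK" => (nat_lit 179769313486231590772930519078902473361797697894230657273430081157732675805500963132708477322407536021120113879871393357658789768814416622492847430639474124377767893424865485276302219601246094119453082952085005768838150682342462881473913110540827237163350510684586298239947245938479716304835356329624224137215 : ℕ)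

/-- The mask of the Maker part, `2 ^ 512 - 1`. -/
local notation "CMASK" => (nat_lit 13407807929942597099574024998205846127479365820592393377723561443721764030073546976801874298166903427690031858186486050853753882811946569946433649006084095 : ℕ)

/-- The mask of the allowed bits. -/
local notation "OKMASK" => (nat_lit 2743020179230535281946541939345750848555742525508196244463891865018732560317087494586393599377565894397365059124943060525486210366883083181910179450378780297812958991483673120165741788626975511839923752263378027203536180819116878732226270817108308850929253867045887029310881577406346282326553799069597695 : ℕ)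

def mask : ℕ := MASK

def cmask : ℕ := CMASK

def okmask : ℕ := OKMASK

theorem mask_eq : mask = 2 ^ 1024 - 1 := by decide +kernel

theorem cmask_eq : cmask = 2 ^ 512 - 1 := by decide +kernel

theorem okmask_testBit (i : ℕ) (h : okmask.testBit i = true) : i % 32 < 16 ∧ i < 1024 := by
  have h1 : i < 1024 := by
    by_contra hge
    have hlt : okmask < 2 ^ i :=
      lt_of_lt_of_le (by decide +kernel : okmask < 2 ^ 1024) (Nat.pow_le_pow_right (by norm_num) (by omega))
    rw [Nat.testBit_lt_two_pow hlt] at h
    exact Bool.noConfusion h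
  have h2 : ∀ i < 1024, okmask.testBit i = true → i % 32 < 16 := by decide +kernel
  exact ⟨h2 i h1 h, h1⟩

def slot (B off : ℕ) : ℕ := Nat.land (Nat.shiftRight B off) MASK

/-- All slots of a block are valid templates. -/
def Valid (d B : ℕ) : Prop := ∀ off, Aligned off → Ok d (slot B off)

theorem Valid.mono {d d' B : ℕ} (h : Valid d B) (hd : d ≤ d') : Valid d' B :=
  fun off ho => (h off ho).mono hd

/-- Threat lists. -/
inductive T (d : ℕ) : Type
  | n : T d
  | c (B d' : ℕ) (hd : d' ≤ d) (hB : Valid d' B) (off : ℕ) (hoff : Aligned off)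
      (sh : ℕ) (M : ℕ) (hM : Single M) (rest : T d) : T d

/-- The value of a threat on the board. -/
@[reducible] def thr (B off sh : ℕ) : ℕ :=
  Nat.shiftLeft (Nat.land (Nat.shiftRight B off) MASK) sh

/-- The check of a threat list against the claimed template `P`. -/
noncomputable def T.check {d : ℕ} (t : T d) : ℕ → ℕ → ℕ → Bool :=
  @T.rec d (fun _ => ℕ → ℕ → ℕ → Bool)
    (fun P O A => Nat.beq
      (Nat.lor (Nat.lor (Nat.lor O (Nat.shiftRight A (nat_lit 512))) P)
        (Nat.shiftLeft (Nat.land P CMASK) (nat_lit 512)))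
      (Nat.land P OKMASK))
    (fun B _ _ _ off _ sh M _ _ ih => fun P O A =>
      ih P (Nat.lor O (Nat.xor (Nat.shiftLeft (Nat.land (Nat.shiftRight B off) MASK) sh) M))
        (Nat.land A (Nat.shiftLeft (Nat.land (Nat.shiftRight B off) MASK) sh)))
    t

/-- Semantic content of a threat list. -/
inductive T.Mem {d : ℕ} : ℕ → ℕ → T d → Prop
  | here (B d' : ℕ) (hd : d' ≤ d) (hB : Valid d' B) (off : ℕ) (hoff : Aligned off)
      (sh : ℕ) (M : ℕ) (hM : Single M) (rest : T d) :
      T.Mem (thr B off sh) M (T.c B d' hd hB off hoff sh M hM rest)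
  | there (B d' : ℕ) (hd : d' ≤ d) (hB : Valid d' B) (off : ℕ) (hoff : Aligned off)
      (sh : ℕ) (M : ℕ) (hM : Single M) (rest : T d) (V M' : ℕ) (h : T.Mem V M' rest) :
      T.Mem V M' (T.c B d' hd hB off hoff sh M hM rest)

theorem T.Mem.shifted {d : ℕ} {V M : ℕ} {t : T d} (h : T.Mem V M t) :
    Single M ∧ ∃ P s, Ok d P ∧ V = P <<< s := by
  induction h with
  | here B d' hd hB off hoff sh M hM rest =>
    exact ⟨hM, _, sh, (hB off hoff).mono hd, rfl⟩
  | there B d' hd hB off hoff sh M hM rest V M' _ ih => exact ih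

/-- Well-formedness of a claimed template. -/
structure Wf (P : ℕ) : Prop where
  guard : ∀ i, P.testBit i = true → i % 32 < 16 ∧ i < 1024
  sub : ∀ i, i < 512 → P.testBit i = true → P.testBit (512 + i) = true

theorem nil_check {P O A : ℕ} (h : Nat.beq
      (Nat.lor (Nat.lor (Nat.lor O (Nat.shiftRight A 512)) P)
        (Nat.shiftLeft (Nat.land P cmask) 512))
      (Nat.land P okmask) = true) :
    Wf P ∧ (∀ i, O.testBit i = true → P.testBit i = true) ∧
      (∀ i, A.testBit (512 + i) = true → P.testBit i = true) := by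
  have h' : (((O ||| (A >>> 512)) ||| P) ||| ((P &&& cmask) <<< 512)) = P &&& okmask :=
    Nat.eq_of_beq_eq_true h
  have key : ∀ i, (((O ||| (A >>> 512)) ||| P) ||| ((P &&& cmask) <<< 512)).testBit i = true →
      P.testBit i = true ∧ okmask.testBit i = true := by
    intro i hi
    rw [h', Nat.testBit_and] at hi
    simpa using hi
  refine ⟨⟨?_, ?_⟩, ?_, ?_⟩
  · intro i hi
    apply okmask_testBit
    apply (key i _).2
    simp only [Nat.testBit_or, hi, Bool.or_true, Bool.true_or]
  · intro i hi hb
    apply (key _ _).1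
    rw [Nat.testBit_or, Nat.testBit_shiftLeft, Nat.testBit_and]
    have e : 512 + i - 512 = i := by omega
    rw [e, hb, cmask_eq, Nat.testBit_two_pow_sub_one]
    simp [hi]
  · intro i hi
    apply (key i _).1
    simp only [Nat.testBit_or, hi, Bool.true_or]
  · intro i hi
    apply (key i _).1
    simp only [Nat.testBit_or, Nat.testBit_shiftRight, hi, Bool.or_true, Bool.true_or]

/-- Meaning of a successful check. -/
theorem T.check_spec {d : ℕ} (t : T d) : ∀ P O A : ℕ, T.check t P O A = true →
    Wf P ∧ (∀ i, O.testBit i = true → P.testBit i = true) ∧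
    (∀ V M, T.Mem V M t → ∀ i, (V ^^^ M).testBit i = true → P.testBit i = true) ∧
    (∀ i, A.testBit (512 + i) = true → (∀ V M, T.Mem V M t → V.testBit (512 + i) = true) →
      P.testBit i = true) := by
  induction t with
  | n =>
    intro P O A h
    obtain ⟨h1, h2, h3⟩ := nil_check h
    refine ⟨h1, h2, ?_, ?_⟩
    · intro V M hm; cases hm
    · intro i hi _
      exact h3 i hi
  | c B d' hd hB off hoff sh M hM rest ih =>
    intro P O A h
    have h' : T.check rest P
      (Nat.lor O (Nat.xor (thr B off sh) M)) (Nat.land A (thr B off sh)) = true := h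
    obtain ⟨h0, h1, h2, h3⟩ := ih _ _ _ h'
    refine ⟨h0, ?_, ?_, ?_⟩
    · intro i hi
      apply h1
      change (O ||| _).testBit i = true
      rw [Nat.testBit_or, hi]; rfl
    · intro V M' hm
      cases hm with
      | here =>
        intro i hi
        apply h1
        change (O ||| (thr B off sh ^^^ M)).testBit i = true
        rw [Nat.testBit_or, hi]; simp
      | there _ _ _ _ _ _ _ _ _ _ _ _ hm => exact h2 _ _ hm
    · intro i hi hall
      apply h3
      · change (A &&& thr B off sh).testBit (512 + i) = true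
        rw [Nat.testBit_and, hi, hall _ _ (T.Mem.here B d' hd hB off hoff sh M hM rest)]; rfl
      · intro V M' hm
        exact hall _ _ (T.Mem.there B d' hd hB off hoff sh M hM rest V M' hm)

theorem T.ok_of_check {d : ℕ} (t : T d) (P : ℕ)
    (h : T.check t P 0 mask = true) : Ok (d + 1) P := by
  obtain ⟨hP, -, h2, h3⟩ := T.check_spec t P 0 mask h
  have sing : ∀ {M : ℕ}, Single M → ∃ m, m < 512 ∧ ∀ i, M.testBit i = true ↔ i = m := by
    rintro M ⟨m, hm, rfl⟩
    refine ⟨m, hm, ?_⟩
    intro i
    rw [Nat.testBit_two_pow]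
    simp [eq_comm]
  have okV : ∀ V M, T.Mem V M t → Ok d V := by
    intro V M hm
    obtain ⟨hM, Q, s, hQ, rfl⟩ := hm.shifted
    obtain ⟨m, hm512, hMb⟩ := sing hM
    apply hQ.shift
    intro i hi
    by_cases him : i = m
    · subst him
      -- the bit is a C-bit; its U-bit shows the bounds
      have hs : s ≤ i ∧ Q.testBit (i - s) = true := by
        rw [Nat.testBit_shiftLeft] at hi
        simpa using hi
      have hu := hQ.sub (i - s) (by omega) hs.2
      have hu' : (Q <<< s).testBit (512 + i) = true := by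
        rw [Nat.testBit_shiftLeft]
        have e : 512 + i - s = 512 + (i - s) := by omega
        rw [e, hu]
        simp; omega
      have : (Q <<< s ^^^ M).testBit (512 + i) = true := by
        rw [Nat.testBit_xor, hu']
        have : M.testBit (512 + i) = false := by
          rw [Bool.eq_false_iff]
          intro hcon
          have := (hMb _).mp hcon
          omega
        rw [this]; rfl
      have := hP.guard _ (h2 _ _ hm _ this)
      omega
    · have : (Q <<< s ^^^ M).testBit i = true := by
        rw [Nat.testBit_xor, hi]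
        have : M.testBit i = false := by
          rw [Bool.eq_false_iff]
          intro hcon
          exact him ((hMb _).mp hcon)
        rw [this]; rfl
      exact hP.guard _ (h2 _ _ hm _ this)
  refine ⟨hP.guard, hP.sub, ?_⟩
  -- choose the Maker cell of each threat
  have hsel : ∀ x : {x : ℕ × ℕ // T.Mem x.1 x.2 t}, ∃ m, m < 512 ∧
      ∀ i, x.1.2.testBit i = true ↔ i = m := fun x => sing x.2.shifted.1
  choose mv hmv1 hmv2 using hsel
  refine Tmpl.and (ι := {x : ℕ × ℕ // T.Mem x.1 x.2 t}) (fun x => Cset x.1.1) (fun x => Uset x.1.1)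
    (fun x => cellOf (mv x)) ?_ ?_ ?_ ?_ ?_
  · rintro ⟨⟨V, M⟩, hm⟩
    exact (okV V M hm).tmpl
  · rintro ⟨⟨V, M⟩, hm⟩ c ⟨i, hi, hb, rfl⟩ hne
    refine ⟨i, hi, ?_, rfl⟩
    apply h2 V M hm
    rw [Nat.testBit_xor, hb]
    have : M.testBit i = false := by
      rw [Bool.eq_false_iff]
      intro hcon
      have := (hmv2 ⟨⟨V, M⟩, hm⟩ i).mp hcon
      exact hne (by rw [this])
    rw [this]; rfl
  · rintro ⟨⟨V, M⟩, hm⟩ c ⟨i, hi, hb, rfl⟩
    refine ⟨i, hi, ?_, rfl⟩
    apply h2 V M hm
    rw [Nat.testBit_xor, hb]
    have : M.testBit (512 + i) = false := by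
      rw [Bool.eq_false_iff]
      intro hcon
      have h5 := (hmv2 ⟨⟨V, M⟩, hm⟩ _).mp hcon
      have h6 := hmv1 ⟨⟨V, M⟩, hm⟩
      omega
    rw [this]; rfl
  · rintro ⟨⟨V, M⟩, hm⟩
    have h6 := hmv1 ⟨⟨V, M⟩, hm⟩
    have h7 := hmv2 ⟨⟨V, M⟩, hm⟩ (mv ⟨⟨V, M⟩, hm⟩)
    by_cases hb : V.testBit (mv ⟨⟨V, M⟩, hm⟩) = true
    · right
      exact ⟨_, h6, (okV V M hm).sub _ h6 hb, rfl⟩
    · left
      refine ⟨_, h6, ?_, rfl⟩
      apply h2 V M hm
      rw [Nat.testBit_xor, h7.mpr rfl]
      rw [Bool.not_eq_true] at hb
      rw [hb]; rfl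
  · intro b hb
    by_contra hcon
    push Not at hcon
    have hall : ∀ V M, T.Mem V M t → b ∈ Uset V := by
      intro V M hm
      exact hcon ⟨⟨V, M⟩, hm⟩
    by_cases hex : ∃ i, i < 512 ∧ cellOf i = b
    · obtain ⟨i, hi, rfl⟩ := hex
      apply hb
      refine ⟨i, hi, ?_, rfl⟩
      apply h3 i
      · rw [mask_eq, Nat.testBit_two_pow_sub_one]
        simp; omega
      · intro V M hm
        obtain ⟨j, hj, hjb, hje⟩ := hall V M hm
        rwa [← cellOf_inj hje]
    · -- no threats at all would violate the check at `i = 16`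
      rcases Classical.em (∃ V M, T.Mem V M t) with ⟨V, M, hm⟩ | hno
      · obtain ⟨j, hj, hjb, hje⟩ := hall V M hm
        exact hex ⟨j, hj, hje⟩
      · have := h3 16 (by
          rw [mask_eq, Nat.testBit_two_pow_sub_one]
          simp) (by
          intro V M hm
          exact absurd ⟨V, M, hm⟩ hno)
        have := (hP.guard 16 this).1
        omega

/-- A block of templates, each given by its threat list. -/
inductive Bl (d : ℕ) : Type
  | n : Bl d
  | c (t : T d) (rest : Bl d) : Bl d

/-- The check of a block: `R` is the rest of the block value (with a sentinel bit on top). -/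
noncomputable def Bl.check {d : ℕ} (l : Bl d) : ℕ → Bool :=
  @Bl.rec d (fun _ => ℕ → Bool)
    (fun R => Nat.beq R (nat_lit 1))
    (fun t _ ih => fun R =>
      @Bool.rec (fun _ => Bool) false (ih (Nat.shiftRight R (nat_lit 1024)))
        (T.check t (Nat.land R MASK) (nat_lit 0) MASK))
    l

/-- Number of templates in a block. -/
def Bl.length {d : ℕ} : Bl d → ℕ
  | .n => 0
  | .c _ rest => rest.length + 1

theorem Bl.check_spec {d : ℕ} (l : Bl d) : ∀ R : ℕ, Bl.check l R = true →
    R >>> (1024 * l.length) = 1 ∧ ∀ k, k < l.length → Ok (d + 1) (slot R (1024 * k)) := by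
  induction l with
  | n =>
    intro R h
    refine ⟨?_, fun k hk => absurd hk (Nat.not_lt_zero _)⟩
    exact Nat.eq_of_beq_eq_true h
  | c t rest ih =>
    intro R h
    have h' : (@Bool.rec (fun _ => Bool) false (Bl.check rest (Nat.shiftRight R 1024))
        (T.check t (Nat.land R mask) 0 mask)) = true := h
    cases hc : T.check t (Nat.land R mask) 0 mask with
    | false => rw [hc] at h'; exact Bool.noConfusion h'
    | true =>
      rw [hc] at h'
      obtain ⟨h1, h2⟩ := ih _ h'
      constructor
      · change (R >>> 1024) >>> (1024 * rest.length) = 1 at h1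
        rw [← Nat.shiftRight_add] at h1
        rw [← h1]
        change R >>> (1024 * (rest.length + 1)) = _
        congr 1
        ring
      intro k hk
      cases k with
      | zero =>
        have := T.ok_of_check t _ hc
        exact this
      | succ k =>
        have hk' : k < rest.length := by
          have : k + 1 < rest.length + 1 := hk
          omega
        have := h2 k hk'
        have e : slot (Nat.shiftRight R 1024) (1024 * k) = slot R (1024 * (k + 1)) := by
          change ((R >>> 1024) >>> (1024 * k)) &&& mask = (R >>> (1024 * (k + 1))) &&& mask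
          rw [← Nat.shiftRight_add]
          congr 2
          ring
        rw [← e]
        exact this

theorem slot_sentinel (B k : ℕ) (hk : k < 64) :
    slot (Nat.add B (Nat.shiftLeft 1 65536)) (1024 * k) = slot B (1024 * k) := by
  change ((B + 1 <<< 65536) >>> (1024 * k)) &&& mask = (B >>> (1024 * k)) &&& mask
  rw [mask_eq, Nat.and_two_pow_sub_one_eq_mod, Nat.and_two_pow_sub_one_eq_mod,
    Nat.shiftRight_eq_div_pow, Nat.shiftRight_eq_div_pow, Nat.one_shiftLeft]
  have e : (2 : ℕ) ^ 65536 = 2 ^ (1024 * k) * (2 ^ 1024 * 2 ^ (64512 - 1024 * k)) := by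
    rw [← pow_add, ← pow_add]
    congr 1
    omega
  rw [e, Nat.add_mul_div_left _ _ (Nat.two_pow_pos _), Nat.add_mul_mod_self_left]

/-- A successful block check proves all 64 templates of the block. -/
theorem Bl.valid {d : ℕ} (l : Bl d) (B : ℕ)
    (h : Bl.check l (Nat.add B (Nat.shiftLeft (nat_lit 1) (nat_lit 65536))) = true) :
    Valid (d + 1) B := by
  obtain ⟨h1, h2⟩ := Bl.check_spec l _ h
  have hl : 64 ≤ l.length := by
    by_contra hlt
    have h3 : (B + 1 <<< 65536) >>> (1024 * l.length) = 1 := h1
    rw [Nat.shiftRight_eq_div_pow, Nat.one_shiftLeft] at h3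
    have h4 : (2 : ℕ) ^ 65536 / 2 ^ (1024 * l.length) ≤ 1 := by
      rw [← h3]
      exact Nat.div_le_div_right (Nat.le_add_left _ _)
    rw [Nat.pow_div (by omega) (by norm_num)] at h4
    have h5 : 65536 - 1024 * l.length = (65536 - 1024 * l.length - 1) + 1 := by omega
    rw [h5, pow_succ] at h4
    have h6 : 1 ≤ (2 : ℕ) ^ (65536 - 1024 * l.length - 1) := Nat.one_le_two_pow
    omega
  rintro off ⟨k, hk, rfl⟩
  rw [← slot_sentinel B k hk]
  exact h2 k (by omega)

end Crest.Agent.R035
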