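import Crest.Agent.R035.Consts

/-!
# From the root template to the statement
-/

set_option autoImplicit false

namespace Crest.Agent.R035

open Crest.CombinatoricsR.PolyominoGame

theorem lor_eq_right {a b : ℕ} (h : Nat.lor a b = b) :
    ∀ i, a.testBit i = true → b.testBit i = true := by
  intro i hi
  rw [← h]
  change (a ||| b).testBit i = true
  rw [Nat.testBit_or, hi]; rfl

/-- If some slot of a valid block of level at most 20 has at most one Maker cell, Maker wins the
game within 21 claims. -/
theorem final_of_valid (L B off m : ℕ) (hL : L ≤ 20) (hB : Valid L B) (hoff : Aligned off)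
    (h : Nat.beq (Nat.lor (Nat.land (slot B off) cmask) (2 ^ m)) (2 ^ m) = true) :
    ∃ σ : List (ℤ × ℤ) → ℤ × ℤ, ∀ b : ℕ → ℤ × ℤ,
      (∀ k : ℕ, k < 20 →
        (∀ j : ℕ, j ≤ k → b k ≠ makerClaim σ b j) ∧
        (∀ j : ℕ, j < k → b k ≠ b j)) →
      (∀ k : ℕ, k ≤ 20 →
        (∀ j : ℕ, j < k → makerClaim σ b k ≠ makerClaim σ b j) ∧
        (∀ j : ℕ, j < k → makerClaim σ b k ≠ b j)) ∧
      ContainsCopy {c | ∃ j : ℕ, j ≤ 20 ∧ c = makerClaim σ b j} := by
  have hok := (hB off hoff).mono hL
  have h' := lor_eq_right (Nat.eq_of_beq_eq_true h)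
  apply final_of_tmpl (cellOf m) (Uset (slot B off))
  refine hok.tmpl.mono ?_ subset_rfl le_rfl
  rintro c ⟨i, hi, hb, rfl⟩
  have h3 : (2 ^ m).testBit i = true := by
    apply h'
    change (slot B off &&& cmask).testBit i = true
    rw [Nat.testBit_and, hb, cmask_eq, Nat.testBit_two_pow_sub_one]
    simpa using hi
  rw [Nat.testBit_two_pow] at h3
  have : m = i := by simpa using h3
  rw [this]
  rfl

end Crest.Agent.R035
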