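import Crest.Prelude.Def_PolyominoGame

/-!
# Semantics of the Snaky Maker–Breaker game: positions, templates, the AND rule

* `BWin d M B`: Breaker is to move, Maker owns `M`, Breaker owns `B`, Maker still has `d` claims and
  can complete a copy of Snaky.
* `Tmpl C U d`: every position with `C ⊆ M` and `U ∩ B = ∅` is `BWin d`.
* `Tmpl.and`: the rule combining several threats.
-/

set_option autoImplicit false

namespace Crest.Agent.R035

open Crest.CombinatoricsR.PolyominoGame

/-- Cells of the board. -/
abbrev Cell := ℤ × ℤ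

/-- Breaker to move; Maker has `d` more claims and can complete a copy. -/
def BWin : ℕ → Finset Cell → Finset Cell → Prop
  | 0, M, _ => ContainsCopy (↑M : Set Cell)
  | d + 1, M, B => ∀ b, b ∉ M → b ∉ B →
      ∃ m, m ∉ M ∧ m ∉ B ∧ m ≠ b ∧ BWin d (insert m M) (insert b B)

theorem ContainsCopy.mono {X Y : Set Cell} (h : X ⊆ Y) (hX : ContainsCopy X) : ContainsCopy Y := by
  obtain ⟨t, e1, e2, h1, h2, h3⟩ := hX
  refine ⟨t, e1, e2, h1, h2, ?_⟩
  rcases h3 with h3 | h3
  · exact Or.inl fun p hp => h (h3 p hp)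
  · exact Or.inr fun p hp => h (h3 p hp)

theorem exists_fresh (F : Finset Cell) : ∃ m : Cell, m ∉ F :=
  Infinite.exists_notMem_finset F

theorem exists_fresh3 (M B : Finset Cell) (b : Cell) : ∃ m : Cell, m ∉ M ∧ m ∉ B ∧ m ≠ b := by
  obtain ⟨m, hm⟩ := exists_fresh (insert b (M ∪ B))
  simp only [Finset.mem_insert, Finset.mem_union, not_or] at hm
  exact ⟨m, hm.2.1, hm.2.2, hm.1⟩

theorem BWin.succ : ∀ {d : ℕ} {M B : Finset Cell}, BWin d M B → BWin (d + 1) M B
  | 0, M, B, h => by
      intro b _ _
      obtain ⟨m, h1, h2, h3⟩ := exists_fresh3 M B b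
      refine ⟨m, h1, h2, h3, ?_⟩
      refine ContainsCopy.mono ?_ h
      intro x hx
      simp only [Finset.coe_insert, Set.mem_insert_iff]
      exact Or.inr hx
  | d + 1, M, B, h => by
      intro b hb1 hb2
      obtain ⟨m, h1, h2, h3, h4⟩ := h b hb1 hb2
      exact ⟨m, h1, h2, h3, BWin.succ h4⟩

theorem BWin.mono_d {d e : ℕ} (hde : d ≤ e) {M B : Finset Cell} (h : BWin d M B) : BWin e M B := by
  induction hde with
  | refl => exact h
  | step _ ih => exact ih.succ

/-- A template: whenever Maker owns `C` and Breaker owns nothing in `U`, Breaker to move, Maker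
wins within `d` more claims. -/
def Tmpl (C U : Set Cell) (d : ℕ) : Prop :=
  ∀ M B : Finset Cell, Disjoint M B → C ⊆ (↑M : Set Cell) → Disjoint U (↑B : Set Cell) → BWin d M B

theorem Tmpl.mono {C U C' U' : Set Cell} {d d' : ℕ} (h : Tmpl C U d) (hC : C ⊆ C') (hU : U ⊆ U')
    (hd : d ≤ d') : Tmpl C' U' d' := by
  intro M B hMB hCM hUB
  exact (h M B hMB (hC.trans hCM) (hUB.mono_left hU)).mono_d hd

theorem Tmpl.base {C U : Set Cell} {d : ℕ} (h : ContainsCopy C) : Tmpl C U d := by
  refine Tmpl.mono (C := C) (U := ∅) (d := 0) ?_ subset_rfl (Set.empty_subset _) (Nat.zero_le _)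
  intro M B _ hCM _
  exact ContainsCopy.mono hCM h

/-- The AND rule. `ι` indexes the threats; in threat `t` Maker plays `m t` and then uses the
template `(Ct t, Ut t)`. -/
theorem Tmpl.and {ι : Type} {C U : Set Cell} {d : ℕ} (Ct Ut : ι → Set Cell) (m : ι → Cell)
    (h : ∀ t, Tmpl (Ct t) (Ut t) d)
    (hC : ∀ t, ∀ c ∈ Ct t, c ≠ m t → c ∈ C)
    (hU : ∀ t, Ut t ⊆ U)
    (hm : ∀ t, m t ∈ C ∨ m t ∈ Ut t)
    (hb : ∀ b, b ∉ C → ∃ t, b ∉ Ut t) :
    Tmpl C U (d + 1) := by
  intro M B hMB hCM hUB b hbM hbB
  obtain ⟨t, ht⟩ := hb b (fun hbC => hbM (hCM hbC))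
  by_cases hmM : m t ∈ M
  · obtain ⟨m', h1, h2, h3⟩ := exists_fresh3 M B b
    refine ⟨m', h1, h2, h3, h t _ _ ?_ ?_ ?_⟩
    · rw [Finset.disjoint_insert_left, Finset.disjoint_insert_right]
      refine ⟨?_, hbM, hMB⟩
      simp only [Finset.mem_insert, not_or]
      exact ⟨h3, h2⟩
    · intro c hc
      simp only [Finset.coe_insert, Set.mem_insert_iff]
      by_cases hcm : c = m t
      · right; rw [hcm]; exact hmM
      · right; exact hCM (hC t c hc hcm)
    · rw [Finset.coe_insert, Set.disjoint_insert_right]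
      exact ⟨ht, hUB.mono_left (hU t)⟩
  · have hmU : m t ∈ Ut t := (hm t).resolve_left (fun hc => hmM (hCM hc))
    have hmB : m t ∉ B := by
      intro hmB
      exact (Set.disjoint_left.mp hUB) (hU t hmU) hmB
    have hmb : m t ≠ b := by
      rintro rfl
      exact ht hmU
    refine ⟨m t, hmM, hmB, hmb, h t _ _ ?_ ?_ ?_⟩
    · rw [Finset.disjoint_insert_left, Finset.disjoint_insert_right]
      refine ⟨?_, hbM, hMB⟩
      simp only [Finset.mem_insert, not_or]
      exact ⟨hmb, hmB⟩
    · intro c hc
      simp only [Finset.coe_insert, Set.mem_insert_iff]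
      by_cases hcm : c = m t
      · left; exact hcm
      · right; exact hCM (hC t c hc hcm)
    · rw [Finset.coe_insert, Set.disjoint_insert_right]
      exact ⟨ht, hUB.mono_left (hU t)⟩

/-! ### Symmetries -/

/-- A symmetry of the game: an equivalence of cells preserving `ContainsCopy`. -/
structure Sym where
  e : Cell ≃ Cell
  copy : ∀ X : Set Cell, ContainsCopy X → ContainsCopy (e '' X)

theorem BWin.image (g : Sym) : ∀ {d : ℕ} {M B : Finset Cell}, BWin d M B →
    BWin d (M.map g.e.toEmbedding) (B.map g.e.toEmbedding)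
  | 0, M, B, h => by
      have := g.copy _ h
      unfold BWin
      rw [Finset.coe_map]
      exact this
  | d + 1, M, B, h => by
      intro b hb1 hb2
      obtain ⟨m, h1, h2, h3, h4⟩ := h (g.e.symm b)
        (fun hh => hb1 (by
          rw [Finset.mem_map]
          exact ⟨_, hh, by simp⟩))
        (fun hh => hb2 (by
          rw [Finset.mem_map]
          exact ⟨_, hh, by simp⟩))
      refine ⟨g.e m, ?_, ?_, ?_, ?_⟩
      · intro hh
        rw [Finset.mem_map] at hh
        obtain ⟨a, ha, hae⟩ := hh
        have : a = m := g.e.injective (by simpa using hae)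
        exact h1 (this ▸ ha)
      · intro hh
        rw [Finset.mem_map] at hh
        obtain ⟨a, ha, hae⟩ := hh
        have : a = m := g.e.injective (by simpa using hae)
        exact h2 (this ▸ ha)
      · intro hh
        apply h3
        rw [← hh]; simp
      · have := BWin.image g h4
        simpa [Finset.map_insert] using this

theorem Tmpl.image (g g' : Sym) (hgg : g'.e = g.e.symm) {C U : Set Cell} {d : ℕ} (h : Tmpl C U d) :
    Tmpl (g.e '' C) (g.e '' U) d := by
  intro M B hMB hCM hUB
  have key : BWin d (M.map g'.e.toEmbedding) (B.map g'.e.toEmbedding) := by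
    apply h
    · rw [Finset.disjoint_map]; exact hMB
    · intro c hc
      rw [Finset.coe_map]
      refine ⟨g.e c, hCM ⟨c, hc, rfl⟩, ?_⟩
      simp [hgg]
    · rw [Set.disjoint_left] at hUB ⊢
      intro c hc hcB
      rw [Finset.coe_map] at hcB
      obtain ⟨a, ha, hae⟩ := hcB
      apply hUB ⟨c, hc, rfl⟩
      have : a = g.e c := by
        rw [← hae]; simp [hgg]
      rw [← this]; exact ha
  have := BWin.image g key
  rw [Finset.map_map, Finset.map_map] at this
  have hid : (g'.e.toEmbedding.trans g.e.toEmbedding) = Function.Embedding.refl _ := by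
    ext x <;> simp [hgg]
  rwa [hid, Finset.map_refl, Finset.map_refl] at this

/-- Translation as a symmetry. -/
def Sym.trans (v : Cell) : Sym where
  e := Equiv.addRight v
  copy := by
    rintro X ⟨t, e1, e2, h1, h2, h3⟩
    refine ⟨t + v, e1, e2, h1, h2, ?_⟩
    rcases h3 with h3 | h3
    · left
      intro p hp
      refine ⟨_, h3 p hp, ?_⟩
      simp only [Equiv.coe_addRight, Prod.fst_add, Prod.snd_add]
      ext <;> simp <;> ring
    · right
      intro p hp
      refine ⟨_, h3 p hp, ?_⟩
      simp only [Equiv.coe_addRight, Prod.fst_add, Prod.snd_add]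
      ext <;> simp <;> ring

theorem Tmpl.translate (v : Cell) {C U : Set Cell} {d : ℕ} (h : Tmpl C U d) :
    Tmpl ((fun c => c + v) '' C) ((fun c => c + v) '' U) d := by
  have := Tmpl.image (Sym.trans v) (Sym.trans (-v)) (by ext x <;> simp [Sym.trans]) h
  exact this

/-! ### From a template to the final statement -/

open Classical in
/-- State of the game for the Maker policy. -/
structure St where
  d : ℕ
  M : Finset Cell
  B : Finset Cell
  last : Cell

open Classical in
/-- Maker's answer. -/
noncomputable def answer (d : ℕ) (M B : Finset Cell) (b : Cell) : Cell :=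
  if h : ∃ m, m ∉ M ∧ m ∉ B ∧ m ≠ b ∧ BWin d (insert m M) (insert b B) then h.choose
  else 0

theorem answer_spec {d : ℕ} {M B : Finset Cell} {b : Cell}
    (h : ∃ m, m ∉ M ∧ m ∉ B ∧ m ≠ b ∧ BWin d (insert m M) (insert b B)) :
    answer d M B b ∉ M ∧ answer d M B b ∉ B ∧ answer d M B b ≠ b ∧
      BWin d (insert (answer d M B b) M) (insert b B) := by
  unfold answer
  rw [dif_pos h]
  exact h.choose_spec

/-- One round: Breaker replies `b`, Maker answers. -/
noncomputable def step (s : St) (b : Cell) : St :=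
  ⟨s.d - 1, insert (answer (s.d - 1) s.M s.B b) s.M, insert b s.B, answer (s.d - 1) s.M s.B b⟩

/-- Initial state, Maker has claimed `c` and has `d` more claims. -/
def init (d : ℕ) (c : Cell) : St := ⟨d, {c}, ∅, c⟩

/-- The policy. -/
noncomputable def policy (d : ℕ) (c : Cell) (l : List Cell) : Cell := (l.foldl step (init d c)).last

/-- State before Breaker's reply number `k`. -/
noncomputable def stAt (d : ℕ) (c : Cell) (b : ℕ → Cell) (k : ℕ) : St :=
  ((List.range k).map b).foldl step (init d c)

theorem stAt_zero (d : ℕ) (c : Cell) (b : ℕ → Cell) : stAt d c b 0 = init d c := rfl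

theorem stAt_succ (d : ℕ) (c : Cell) (b : ℕ → Cell) (k : ℕ) :
    stAt d c b (k + 1) = step (stAt d c b k) (b k) := by
  unfold stAt
  rw [List.range_succ, List.map_append, List.foldl_append]
  rfl

theorem makerClaim_policy (d : ℕ) (c : Cell) (b : ℕ → Cell) (k : ℕ) :
    makerClaim (policy d c) b k = (stAt d c b k).last := rfl

theorem final_of_bwin (n : ℕ) (c : Cell) (h : BWin n {c} ∅) :
    ∃ σ : List (ℤ × ℤ) → ℤ × ℤ, ∀ b : ℕ → ℤ × ℤ,
      (∀ k : ℕ, k < n →
        (∀ j : ℕ, j ≤ k → b k ≠ makerClaim σ b j) ∧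
        (∀ j : ℕ, j < k → b k ≠ b j)) →
      (∀ k : ℕ, k ≤ n →
        (∀ j : ℕ, j < k → makerClaim σ b k ≠ makerClaim σ b j) ∧
        (∀ j : ℕ, j < k → makerClaim σ b k ≠ b j)) ∧
      ContainsCopy {c | ∃ j : ℕ, j ≤ n ∧ c = makerClaim σ b j} := by
  refine ⟨policy n c, ?_⟩
  intro b hb
  have inv : ∀ k : ℕ, k ≤ n →
      (stAt n c b k).d = n - k ∧ BWin (n - k) (stAt n c b k).M (stAt n c b k).B ∧
      (∀ x, x ∈ (stAt n c b k).M ↔ ∃ j, j ≤ k ∧ x = makerClaim (policy n c) b j) ∧
      (∀ x, x ∈ (stAt n c b k).B ↔ ∃ j, j < k ∧ x = b j) ∧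
      (∀ j : ℕ, j < k → makerClaim (policy n c) b k ≠ makerClaim (policy n c) b j) ∧
      (∀ j : ℕ, j < k → makerClaim (policy n c) b k ≠ b j) := by
    intro k
    induction k with
    | zero =>
      intro _
      refine ⟨rfl, ?_, ?_, ?_, ?_, ?_⟩
      · rw [stAt_zero]; exact h
      · intro x
        rw [stAt_zero]
        constructor
        · intro hx
          refine ⟨0, le_rfl, ?_⟩
          have : x = c := by simpa [init] using hx
          rw [this]; rfl
        · rintro ⟨j, hj, rfl⟩
          have : j = 0 := by omega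
          subst this
          simp [makerClaim_policy, stAt_zero, init]
      · intro x
        rw [stAt_zero]
        simp [init]
      · intro j hj; omega
      · intro j hj; omega
    | succ k ih =>
      intro hk
      obtain ⟨h1, h2, h3, h4, _, _⟩ := ih (by omega)
      have hd : n - k = (n - (k + 1)) + 1 := by omega
      rw [hd] at h2
      have hbM : b k ∉ (stAt n c b k).M := by
        rw [h3]
        rintro ⟨j, hj, hje⟩
        exact (hb k (by omega)).1 j hj hje
      have hbB : b k ∉ (stAt n c b k).B := by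
        rw [h4]
        rintro ⟨j, hj, hje⟩
        exact (hb k (by omega)).2 j hj hje
      have hd' : (stAt n c b k).d - 1 = n - (k + 1) := by rw [h1]; omega
      obtain ⟨a1, a2, a3, a4⟩ := answer_spec (h2 (b k) hbM hbB)
      have hM : (stAt n c b (k + 1)).M =
          insert (answer (n - (k + 1)) (stAt n c b k).M (stAt n c b k).B (b k)) (stAt n c b k).M := by
        rw [stAt_succ, step, hd']
      have hB : (stAt n c b (k + 1)).B = insert (b k) (stAt n c b k).B := by
        rw [stAt_succ, step]
      have hlast : makerClaim (policy n c) b (k + 1) =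
          answer (n - (k + 1)) (stAt n c b k).M (stAt n c b k).B (b k) := by
        rw [makerClaim_policy, stAt_succ, step, hd']
      refine ⟨?_, ?_, ?_, ?_, ?_, ?_⟩
      · rw [stAt_succ, step]; exact hd'
      · rw [hM, hB]; exact a4
      · intro x
        rw [hM, Finset.mem_insert, h3, ← hlast]
        constructor
        · rintro (rfl | ⟨j, hj, rfl⟩)
          · exact ⟨k + 1, le_rfl, rfl⟩
          · exact ⟨j, by omega, rfl⟩
        · rintro ⟨j, hj, rfl⟩
          rcases Nat.lt_or_ge j (k + 1) with hlt | hge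
          · exact Or.inr ⟨j, by omega, rfl⟩
          · have : j = k + 1 := by omega
            subst this
            exact Or.inl rfl
      · intro x
        rw [hB, Finset.mem_insert, h4]
        constructor
        · rintro (rfl | ⟨j, hj, rfl⟩)
          · exact ⟨k, by omega, rfl⟩
          · exact ⟨j, by omega, rfl⟩
        · rintro ⟨j, hj, rfl⟩
          rcases Nat.lt_or_ge j k with hlt | hge
          · exact Or.inr ⟨j, hlt, rfl⟩
          · have : j = k := by omega
            subst this
            exact Or.inl rfl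
      · intro j hj hje
        apply a1
        rw [h3, ← hlast]
        exact ⟨j, by omega, hje⟩
      · intro j hj hje
        rcases Nat.lt_or_ge j k with hlt | hge
        · apply a2
          rw [h4, ← hlast]
          exact ⟨j, hlt, hje⟩
        · have : j = k := by omega
          subst this
          apply a3
          rw [← hlast]
          exact hje
  constructor
  · intro k hk
    obtain ⟨_, _, _, _, h5, h6⟩ := inv k hk
    exact ⟨h5, h6⟩
  · obtain ⟨_, h2, h3, _, _, _⟩ := inv n le_rfl
    rw [Nat.sub_self] at h2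
    refine ContainsCopy.mono ?_ h2
    intro x hx
    exact (h3 x).mp hx

theorem final_of_tmpl (c : Cell) (U : Set Cell) (h : Tmpl {c} U 20) :
    ∃ σ : List (ℤ × ℤ) → ℤ × ℤ, ∀ b : ℕ → ℤ × ℤ,
      (∀ k : ℕ, k < 20 →
        (∀ j : ℕ, j ≤ k → b k ≠ makerClaim σ b j) ∧
        (∀ j : ℕ, j < k → b k ≠ b j)) →
      (∀ k : ℕ, k ≤ 20 →
        (∀ j : ℕ, j < k → makerClaim σ b k ≠ makerClaim σ b j) ∧
        (∀ j : ℕ, j < k → makerClaim σ b k ≠ b j)) ∧
      ContainsCopy {c | ∃ j : ℕ, j ≤ 20 ∧ c = makerClaim σ b j} := by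
  apply final_of_bwin 20 c
  apply h
  · simp
  · simp
  · simp

end Crest.Agent.R035
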