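import Crest.Agent.R035.Root

/-!
# Semantic templates without size restriction

The last two AND nodes (after Maker's first and second claim) have supports which do not fit in one
`16 × 16` box. They are combined at the level of cells.
-/

set_option autoImplicit false
set_option exponentiation.threshold 100000

namespace Crest.Agent.R035

open Crest.CombinatoricsR.PolyominoGame

/-- A template given by a list of Maker cells and a decidable support. -/
structure GT (d : ℕ) where
  Cl : List Cell
  U : Cell → Bool
  sup : List Cell
  hsup : ∀ c, U c = true → c ∈ sup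
  ok : Tmpl {c | c ∈ Cl} {c | U c = true} d

namespace GT

variable {d : ℕ}

theorem rot_rotInv (a b s : Bool) (c : Cell) : rot a b s (rotInv a b s c) = c := by
  cases a <;> cases b <;> cases s <;> simp [rot, rotInv]

/-- Placement of a template by a rotation/reflection and a translation. -/
def place (g : GT d) (a b s : Bool) (v : Cell) : GT d where
  Cl := g.Cl.map fun c => rot a b s c + v
  U := fun c => g.U (rotInv a b s (c - v))
  sup := g.sup.map fun c => rot a b s c + v
  hsup := by
    intro c hc
    rw [List.mem_map]
    refine ⟨_, g.hsup _ hc, ?_⟩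
    rw [rot_rotInv]
    simp
  ok := by
    have h := (tmpl_rot a b s g.ok).translate v
    rw [← Set.image_comp, ← Set.image_comp] at h
    refine h.mono ?_ ?_ le_rfl
    · rintro c ⟨c', hc', rfl⟩
      exact List.mem_map.mpr ⟨c', hc', rfl⟩
    · rintro c ⟨c', hc', rfl⟩
      change g.U (rotInv a b s (rot a b s c' + v - v)) = true
      rw [add_sub_cancel_right, rotInv_rot]
      exact hc'

/-- Membership of a cell in the support part of a bitboard. -/
def inBoard (P : ℕ) (c : Cell) : Bool :=
  decide (0 ≤ c.1) && decide (0 ≤ c.2) && decide (c.1 < 32) &&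
    P.testBit (512 + (c.1.toNat + 32 * c.2.toNat))

/-- The Maker cells of the board are all in the list. -/
def boardC (P : ℕ) (Cl : List Cell) : Bool :=
  (List.range 512).all fun i => !(P.testBit i) || Cl.contains (cellOf i)

/-- A bitboard template in its own frame. -/
def ofOk (P : ℕ) (hP : Ok d P) (Cl : List Cell) (h : boardC P Cl = true) : GT d where
  Cl := Cl
  U := inBoard P
  sup := ((List.range 512).filter fun i => P.testBit (512 + i)).map cellOf
  hsup := by
    intro c hc
    simp only [inBoard, Bool.and_eq_true, decide_eq_true_eq] at hc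
    obtain ⟨⟨⟨h1, h2⟩, h3⟩, h4⟩ := hc
    have hg := (hP.guard _ h4).2
    rw [List.mem_map]
    refine ⟨c.1.toNat + 32 * c.2.toNat, ?_, ?_⟩
    · rw [List.mem_filter, List.mem_range]
      exact ⟨by omega, h4⟩
    · unfold cellOf
      ext
      · simp only; omega
      · simp only; omega
  ok := by
    refine hP.tmpl.mono ?_ ?_ le_rfl
    · rintro c ⟨i, hi, hb, rfl⟩
      unfold boardC at h
      rw [List.all_eq_true] at h
      have := h i (List.mem_range.mpr hi)
      rw [hb] at this
      simpa using this
    · rintro c ⟨i, hi, hb, rfl⟩
      have hg := (hP.guard _ hb).1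
      change inBoard P (cellOf i) = true
      unfold inBoard cellOf
      simp only [Int.toNat_natCast, Nat.mod_add_div, hb]
      simp only [Bool.and_true, Bool.and_eq_true, decide_eq_true_eq]
      omega

/-- Increase of the bound. -/
def up {d' : ℕ} (g : GT d) (h : d ≤ d') : GT d' where
  Cl := g.Cl
  U := g.U
  sup := g.sup
  hsup := g.hsup
  ok := g.ok.mono subset_rfl subset_rfl h

end GT

/-- A threat: Maker plays `m`, then the template applies. -/
structure Th (d : ℕ) where
  g : GT d
  m : Cell

/-- Check of a threat against the Maker cells of the node. -/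
def Th.condA {d : ℕ} (Cl : List Cell) (t : Th d) : Bool :=
  t.g.Cl.all (fun c => (c == t.m) || Cl.contains c) && (Cl.contains t.m || t.g.U t.m)

/-- Every cell of the support of the first threat is a Maker cell or avoided by some threat. -/
def condBG {d : ℕ} (Cl : List Cell) (t1 : Th d) (ts : List (Th d)) : Bool :=
  t1.g.sup.all fun b => Cl.contains b || ts.any fun t => !(t.g.U b)

/-- The AND rule for semantic templates. -/
def GT.and {d : ℕ} (Cl : List Cell) (t1 : Th d) (ts : List (Th d))
    (hA : (t1 :: ts).all (Th.condA Cl) = true) (hB : condBG Cl t1 ts = true) : GT (d + 1) where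
  Cl := Cl
  U := fun c => (t1 :: ts).any fun t => t.g.U c
  sup := (t1 :: ts).flatMap fun t => t.g.sup
  hsup := by
    intro c hc
    rw [List.any_eq_true] at hc
    obtain ⟨t, ht, hu⟩ := hc
    rw [List.mem_flatMap]
    exact ⟨t, ht, t.g.hsup c hu⟩
  ok := by
    have hA' : ∀ t ∈ t1 :: ts, Th.condA Cl t = true := List.all_eq_true.mp hA
    refine Tmpl.and (ι := {t : Th d // t ∈ t1 :: ts}) (fun t => {c | c ∈ t.1.g.Cl})
      (fun t => {c | t.1.g.U c = true}) (fun t => t.1.m) (fun t => t.1.g.ok) ?_ ?_ ?_ ?_
    · rintro ⟨t, ht⟩ c hc hne
      have h := hA' t ht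
      unfold Th.condA at h
      rw [Bool.and_eq_true, List.all_eq_true] at h
      have h1 := h.1 c hc
      rw [Bool.or_eq_true] at h1
      rcases h1 with h1 | h1
      · exact absurd (by simpa using h1) hne
      · simpa using h1
    · rintro ⟨t, ht⟩ c hc
      change ((t1 :: ts).any fun t => t.g.U c) = true
      rw [List.any_eq_true]
      exact ⟨t, ht, hc⟩
    · rintro ⟨t, ht⟩
      have h := hA' t ht
      unfold Th.condA at h
      rw [Bool.and_eq_true, Bool.or_eq_true] at h
      rcases h.2 with h1 | h1
      · left; simpa using h1
      · right; exact h1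
    · intro b hb
      by_contra hcon
      push Not at hcon
      have h1 := hcon ⟨t1, List.mem_cons_self⟩
      have h2 : b ∈ t1.g.sup := t1.g.hsup b h1
      unfold condBG at hB
      rw [List.all_eq_true] at hB
      have h3 := hB b h2
      rw [Bool.or_eq_true] at h3
      rcases h3 with h3 | h3
      · exact hb (by simpa using h3)
      · rw [List.any_eq_true] at h3
        obtain ⟨t, ht, hn⟩ := h3
        have h4 := hcon ⟨t, List.mem_cons_of_mem _ ht⟩
        have h5 : t.g.U b = true := h4
        rw [h5] at hn
        exact Bool.noConfusion hn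

/-- The root: only one Maker cell and at most 20 further claims. -/
theorem GT.final (g : GT 20) (h : g.Cl = [(0, 0)]) : Tmpl {0} Set.univ 20 := by
  refine g.ok.mono ?_ (Set.subset_univ _) le_rfl
  rw [h]
  intro c hc
  have : c = (0, 0) := by simpa using hc
  rw [this]
  rfl

end Crest.Agent.R035
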