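import Crest.Agent.R035.Final

/-!
# The root rule

The root position (Maker owns the origin, Breaker to move) is treated separately: the supports of the
threats need not fit in one `16 × 16` box, and each threat may be a reflected/rotated template.
-/

set_option autoImplicit false
set_option exponentiation.threshold 100000

namespace Crest.Agent.R035

open Crest.CombinatoricsR.PolyominoGame

/-- Reflection in the first coordinate. -/
def negX : Sym where
  e := { toFun := fun c => (-c.1, c.2)
         invFun := fun c => (-c.1, c.2)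
         left_inv := fun c => by ext <;> simp
         right_inv := fun c => by ext <;> simp }
  copy := by
    rintro X ⟨t, e1, e2, h1, h2, h3⟩
    refine ⟨(-t.1, t.2), -e1, e2, ?_, h2, ?_⟩
    · rcases h1 with rfl | rfl
      · right; rfl
      · left; rfl
    · rcases h3 with h3 | h3
      · left
        intro p hp
        refine ⟨_, h3 p hp, ?_⟩
        ext <;> simp; ring
      · right
        intro p hp
        refine ⟨_, h3 p hp, ?_⟩
        ext <;> simp; ring

/-- Reflection in the second coordinate. -/
def negY : Sym where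
  e := { toFun := fun c => (c.1, -c.2)
         invFun := fun c => (c.1, -c.2)
         left_inv := fun c => by ext <;> simp
         right_inv := fun c => by ext <;> simp }
  copy := by
    rintro X ⟨t, e1, e2, h1, h2, h3⟩
    refine ⟨(t.1, -t.2), e1, -e2, h1, ?_, ?_⟩
    · rcases h2 with rfl | rfl
      · right; rfl
      · left; rfl
    · rcases h3 with h3 | h3
      · left
        intro p hp
        refine ⟨_, h3 p hp, ?_⟩
        ext <;> simp; ring
      · right
        intro p hp
        refine ⟨_, h3 p hp, ?_⟩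
        ext <;> simp; ring

/-- Exchange of the coordinates. -/
def swp : Sym where
  e := { toFun := fun c => (c.2, c.1)
         invFun := fun c => (c.2, c.1)
         left_inv := fun c => rfl
         right_inv := fun c => rfl }
  copy := by
    rintro X ⟨t, e1, e2, h1, h2, h3⟩
    refine ⟨(t.2, t.1), e2, e1, h2, h1, ?_⟩
    rcases h3 with h3 | h3
    · right
      intro p hp
      exact ⟨_, h3 p hp, rfl⟩
    · left
      intro p hp
      exact ⟨_, h3 p hp, rfl⟩

theorem tmpl_negX {C U : Set Cell} {d : ℕ} (h : Tmpl C U d) :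
    Tmpl ((fun c : Cell => ((-c.1, c.2) : Cell)) '' C) ((fun c : Cell => ((-c.1, c.2) : Cell)) '' U) d :=
  Tmpl.image negX negX rfl h

theorem tmpl_negY {C U : Set Cell} {d : ℕ} (h : Tmpl C U d) :
    Tmpl ((fun c : Cell => ((c.1, -c.2) : Cell)) '' C) ((fun c : Cell => ((c.1, -c.2) : Cell)) '' U) d :=
  Tmpl.image negY negY rfl h

theorem tmpl_swp {C U : Set Cell} {d : ℕ} (h : Tmpl C U d) :
    Tmpl ((fun c : Cell => ((c.2, c.1) : Cell)) '' C) ((fun c : Cell => ((c.2, c.1) : Cell)) '' U) d :=
  Tmpl.image swp swp rfl h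

/-- The linear part: negate `x` if `a`, negate `y` if `b`, then swap if `s`. -/
def rot (a b s : Bool) (c : Cell) : Cell :=
  let x := if a then -c.1 else c.1
  let y := if b then -c.2 else c.2
  if s then (y, x) else (x, y)

/-- Inverse of `rot`. -/
def rotInv (a b s : Bool) (c : Cell) : Cell :=
  let x := if s then c.2 else c.1
  let y := if s then c.1 else c.2
  (if a then -x else x, if b then -y else y)

theorem rotInv_rot (a b s : Bool) (c : Cell) : rotInv a b s (rot a b s c) = c := by
  cases a <;> cases b <;> cases s <;> simp [rot, rotInv]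

theorem rot_zero (a b s : Bool) : rot a b s 0 = 0 := by
  cases a <;> cases b <;> cases s <;> simp [rot]

theorem tmpl_rot (a b s : Bool) {C U : Set Cell} {d : ℕ} (h : Tmpl C U d) :
    Tmpl (rot a b s '' C) (rot a b s '' U) d := by
  have h1 : Tmpl (rot a false false '' C) (rot a false false '' U) d := by
    cases a
    · have e : rot false false false = id := by funext c; simp [rot]
      rw [e, Set.image_id, Set.image_id]; exact h
    · exact tmpl_negX h
  have h2 : Tmpl (rot a b false '' C) (rot a b false '' U) d := by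
    cases b
    · exact h1
    · have e : rot a true false = (fun c : Cell => ((c.1, -c.2) : Cell)) ∘ rot a false false := by
        funext c; simp [rot]
      rw [e, Set.image_comp, Set.image_comp]; exact tmpl_negY h1
  cases s
  · exact h2
  · have e : rot a b true = (fun c : Cell => ((c.2, c.1) : Cell)) ∘ rot a b false := by
      funext c; simp [rot]
    rw [e, Set.image_comp, Set.image_comp]; exact tmpl_swp h2

/-- A threat at the root: a valid template `P`, the bit `z` of its frame that is placed at the
origin, the bit `m` of its frame at which Maker plays, and the orientation. -/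
structure RT (d : ℕ) where
  P : ℕ
  z : ℕ
  m : ℕ
  a : Bool
  b : Bool
  s : Bool
  ok : Ok d P

namespace RT

variable {d : ℕ}

/-- Maker cells of the threat are the origin and the move; the move belongs to the support. -/
def condA (t : RT d) : Bool :=
  Nat.beq (Nat.lor (Nat.land t.P cmask) (Nat.lor (Nat.pow 2 t.m) (Nat.pow 2 t.z)))
    (Nat.lor (Nat.pow 2 t.m) (Nat.pow 2 t.z)) && t.P.testBit (512 + t.m)

/-- Bit test at template coordinates relative to `z`. -/
def inU' (t : RT d) (c : Cell) : Bool :=
  decide (0 ≤ c.1 + (t.z % 32 : ℕ)) && decide (0 ≤ c.2 + (t.z / 32 : ℕ)) &&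
    decide (c.1 + (t.z % 32 : ℕ) < 32) &&
    t.P.testBit (512 + ((c.1 + (t.z % 32 : ℕ)).toNat + 32 * (c.2 + (t.z / 32 : ℕ)).toNat))

/-- Does the support contain the cell `c` (coordinates relative to the origin)? -/
def inU (t : RT d) (c : Cell) : Bool := t.inU' (rotInv t.a t.b t.s c)

/-- Placement of the template frame on the board. -/
def pl (t : RT d) (c : Cell) : Cell := rot t.a t.b t.s (c + -cellOf t.z)

theorem tmpl (t : RT d) : Tmpl (t.pl '' Cset t.P) (t.pl '' Uset t.P) d := by
  have h := tmpl_rot t.a t.b t.s (t.ok.tmpl.translate (-cellOf t.z))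
  rw [← Set.image_comp, ← Set.image_comp] at h
  exact h

theorem pl_z (t : RT d) : t.pl (cellOf t.z) = 0 := by
  unfold pl
  rw [add_neg_cancel]
  exact rot_zero _ _ _

theorem inU_of_mem (t : RT d) (c : Cell) (h : c ∈ t.pl '' Uset t.P) : t.inU c = true := by
  obtain ⟨c', ⟨i, hi, hb, rfl⟩, rfl⟩ := h
  have hg := (t.ok.guard _ hb).1
  unfold inU pl
  rw [rotInv_rot]
  unfold inU'
  have e1 : (cellOf i + -cellOf t.z).1 + ((t.z % 32 : ℕ) : ℤ) = ((i % 32 : ℕ) : ℤ) := by
    simp [cellOf]
  have e2 : (cellOf i + -cellOf t.z).2 + ((t.z / 32 : ℕ) : ℤ) = ((i / 32 : ℕ) : ℤ) := by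
    simp [cellOf]
  rw [e1, e2, Int.toNat_natCast, Int.toNat_natCast, Nat.mod_add_div, hb]
  simp only [Bool.and_true, Bool.and_eq_true, decide_eq_true_eq]
  omega

theorem mem_of_condA (t : RT d) (h : t.condA = true) :
    (∀ c ∈ t.pl '' Cset t.P, c ≠ t.pl (cellOf t.m) → c ∈ ({0} : Set Cell)) ∧
    t.pl (cellOf t.m) ∈ t.pl '' Uset t.P := by
  unfold condA at h
  rw [Bool.and_eq_true] at h
  obtain ⟨h1, h2⟩ := h
  have h3 := lor_eq_right (Nat.eq_of_beq_eq_true h1)
  constructor
  · rintro c ⟨c', ⟨i, hi, hb, rfl⟩, rfl⟩ hne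
    have h4 := h3 i (by
      change (t.P &&& cmask).testBit i = true
      rw [Nat.testBit_and, hb, cmask_eq, Nat.testBit_two_pow_sub_one]
      simpa using hi)
    have h5 : (2 ^ t.m ||| 2 ^ t.z).testBit i = true := h4
    rw [Nat.testBit_or, Nat.testBit_two_pow, Nat.testBit_two_pow] at h5
    rcases (by simpa using h5 : t.m = i ∨ t.z = i) with rfl | rfl
    · exact absurd rfl hne
    · rw [t.pl_z]; rfl
  · refine ⟨cellOf t.m, ⟨t.m, ?_, h2, rfl⟩, rfl⟩
    have := (t.ok.guard _ h2).2
    omega

end RT

/-- For each cell `i` of the support of `t1`, different from the origin, some threat avoids it. -/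
def condB {d : ℕ} (t1 : RT d) (ts : List (RT d)) : Bool :=
  (List.range 512).all fun i =>
    !(t1.P.testBit (512 + i)) || Nat.beq i t1.z ||
      ts.any fun t => !(t.inU (t1.pl (cellOf i)))

/-- The root rule. -/
theorem root_rule {d : ℕ} (t1 : RT d) (ts : List (RT d)) (hA : (t1 :: ts).all RT.condA = true)
    (hB : condB t1 ts = true) : Tmpl {0} Set.univ (d + 1) := by
  have hA' : ∀ t ∈ t1 :: ts, t.condA = true := List.all_eq_true.mp hA
  refine Tmpl.and (ι := {t : RT d // t ∈ t1 :: ts})
    (fun t => t.1.pl '' Cset t.1.P) (fun t => t.1.pl '' Uset t.1.P)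
    (fun t => t.1.pl (cellOf t.1.m)) (fun t => t.1.tmpl) ?_ (fun t => Set.subset_univ _) ?_ ?_
  · rintro ⟨t, ht⟩
    exact (t.mem_of_condA (hA' t ht)).1
  · rintro ⟨t, ht⟩
    exact Or.inr (t.mem_of_condA (hA' t ht)).2
  · intro b hb
    by_contra hcon
    push Not at hcon
    have h1 := hcon ⟨t1, List.mem_cons_self⟩
    obtain ⟨c, ⟨i, hi, hbit, rfl⟩, hbe⟩ := h1
    have hB' : ∀ i ∈ List.range 512, (!(t1.P.testBit (512 + i)) || Nat.beq i t1.z ||
      ts.any fun t => !(t.inU (t1.pl (cellOf i)))) = true := List.all_eq_true.mp hB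
    have h2 := hB' i (List.mem_range.mpr hi)
    rw [hbit] at h2
    simp only [Bool.not_true, Bool.false_or, Bool.or_eq_true] at h2
    rcases h2 with h2 | h2
    · have : i = t1.z := Nat.eq_of_beq_eq_true h2
      subst this
      apply hb
      rw [← hbe]
      exact t1.pl_z
    · rw [List.any_eq_true] at h2
      obtain ⟨t, ht, hn⟩ := h2
      have h3 := hcon ⟨t, List.mem_cons_of_mem _ ht⟩
      have h4 := t.inU_of_mem b h3
      have hbe' : t1.pl (cellOf i) = b := hbe
      rw [hbe', h4] at hn
      exact Bool.noConfusion hn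

theorem final_of_root (h : Tmpl {0} Set.univ 20) :
    ∃ σ : List (ℤ × ℤ) → ℤ × ℤ, ∀ b : ℕ → ℤ × ℤ,
      (∀ k : ℕ, k < 20 →
        (∀ j : ℕ, j ≤ k → b k ≠ makerClaim σ b j) ∧
        (∀ j : ℕ, j < k → b k ≠ b j)) →
      (∀ k : ℕ, k ≤ 20 →
        (∀ j : ℕ, j < k → makerClaim σ b k ≠ makerClaim σ b j) ∧
        (∀ j : ℕ, j < k → makerClaim σ b k ≠ b j)) ∧
      ContainsCopy {c | ∃ j : ℕ, j ≤ 20 ∧ c = makerClaim σ b j} := by
  exact final_of_tmpl 0 Set.univ h

end Crest.Agent.R035
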