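import Crest.Agent.R035.Consts

/-!
# A small tactic building the proof term of a block from compact text

`blk d B "data"` closes the goal `Valid (d+1) B`; `data` lists the templates of the block, each one
terminated by `;`, and each template is a list of threats `L,I,S,s,m` terminated by a blank:
the sub-template is slot `S` of block `b_L_I`, shifted by `s` bits, and Maker plays bit `m`.
-/

set_option autoImplicit false

namespace Crest.Agent.R035

/-- Expression of a threat list. -/
def mkThreats (d : Nat) (ms os : Array Lean.Expr) (ths : Array (Array Nat)) : Lean.Expr := Id.run do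
  let dE := Lean.mkRawNatLit d
  let ns := `Crest.Agent.R035
  let mut e := Lean.mkApp (Lean.mkConst ``T.n) dE
  for i in [0:ths.size] do
    let t := ths[ths.size - 1 - i]!
    let L := t[0]!
    let I := t[1]!
    let S := t[2]!
    let s := t[3]!
    let m := t[4]!
    e := Lean.mkAppN (Lean.mkConst ``T.c) #[dE,
      Lean.mkConst (.str ns s!"b_{L}_{I}"), Lean.mkRawNatLit L,
      Lean.mkConst (.str ns s!"le_{L}_{d}"),
      Lean.mkConst (.str ns s!"k_{L}_{I}"),
      os[S]!, Lean.mkConst (.str ns s!"ho_{S}"),
      Lean.mkRawNatLit s, ms[m]!, Lean.mkConst (.str ns s!"hm_{m}"), e]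
  return e

/-- Parse the data string into the block expression. -/
def mkBlock (d : Nat) (s : String) : Lean.Expr := Id.run do
  let ms : Array Lean.Expr := (Array.range 512).map fun i => Lean.mkRawNatLit (2 ^ i)
  let os : Array Lean.Expr := (Array.range 64).map fun i => Lean.mkRawNatLit (1024 * i)
  let bytes := s.toUTF8
  let mut cur : Nat := 0
  let mut th : Array Nat := #[]
  let mut ths : Array (Array Nat) := #[]
  let mut tmpls : Array Lean.Expr := #[]
  for c in bytes do
    let n := c.toNat
    if 48 ≤ n && n ≤ 57 then
      cur := cur * 10 + (n - 48)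
    else if n == 44 then
      th := th.push cur
      cur := 0
    else if n == 32 then
      th := th.push cur
      cur := 0
      ths := ths.push th
      th := #[]
    else if n == 59 then
      tmpls := tmpls.push (mkThreats d ms os ths)
      ths := #[]
  let dE := Lean.mkRawNatLit d
  let mut e := Lean.mkApp (Lean.mkConst ``Bl.n) dE
  for i in [0:tmpls.size] do
    e := Lean.mkAppN (Lean.mkConst ``Bl.c) #[dE, tmpls[tmpls.size - 1 - i]!, e]
  return e

/-- `blk d b "data"` closes a goal `Valid (d+1) b`. -/
elab "blk " d:num b:ident s:str : tactic => do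
  let g ← Lean.Elab.Tactic.getMainGoal
  let B := Lean.mkConst (← Lean.resolveGlobalConstNoOverload b)
  let data := mkBlock d.getNat s.getString
  let pf := Lean.mkAppN (Lean.mkConst ``Bl.valid) #[Lean.mkRawNatLit d.getNat, data, B,
    Lean.mkApp2 (Lean.mkConst ``Eq.refl [1]) (Lean.mkConst ``Bool) (Lean.mkConst ``Bool.true)]
  g.assign pf

end Crest.Agent.R035
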